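import Vale.Agent.P284.H478.G.S
import Vale.Agent.P284.H988.N.Defs
import Vale.Agent.P284.H494.TailS
import Vale.Agent.P284.H625.N.SumS
import Vale.Agent.P284.H213.N.S
import Vale.Agent.P284.H837.N.S
import Vale.Agent.P284.H988.T.CStkO
import Vale.Agent.P284.H625.N.Fl

/-!
# P284 (helper650), T3⁺ (`K` has property (T)): interface statements

`JDat`: the output of the limit, with its real structure `J`. `TwoPot`: the two point potential `T`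
(`T y y' = u y' - u y` along the fibres of `F`). `AffTriv`: the elements acting trivially on the affine
Hilbert bundle. `JDatN`: the same, natural for the group `Γ` of `E → X` (`G` normal of finite index in
`Γ`), in the charts of `X`.
-/

open scoped Manifold ContDiff Topology InnerProductSpace ComplexConjugate
open Filter Set Metric

noncomputable section

namespace Vale.Agent.P284.H650.T

open Vale.Agent.P272.K Vale.Agent.P284.H894 Vale.Agent.P284.H894.G Vale.Agent.P284.H894.V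
  Vale.Agent.P284.H894.W Vale.Agent.P284.H573 Vale.Agent.P284.H213.Grp Vale.Agent.P284.H395
  Vale.Agent.P284.H619 Vale.Agent.P284.H625 Vale.Agent.P284.H378 Vale.Agent.P284.H478.G
  Vale.Agent.P284.H988.N Vale.Agent.P284.H494 Vale.Agent.P284.H494.N Vale.Agent.P284.H501.Core
  Vale.Agent.P284.H119.Kaz Vale.Agent.P284.H213.Q Vale.Agent.P284.H837.N

section
variable {n q r k s m : ℕ} {X E Γ W H : Type} [TopologicalSpace X] [ChartedSpace (Cm n) X]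
  [TopologicalSpace E] [Group Γ] [MulAction Γ E]
  [NormedAddCommGroup W] [InnerProductSpace ℂ W] [NormedAddCommGroup H] [InnerProductSpace ℂ H]

/-- The standing data: `F` is equivariant under translations, `K` is the kernel of the periods. -/
structure Std (w : Chart n X → Cm n → Matrix (Fin n) (Fin n) ℂ) (p : E → X) (F : E → Cm q)
    (c : Γ → Cm q) (K : Subgroup Γ) : Prop where
  kah : IsKahler w
  gal : IsGalois Γ p
  hol : ∃ B, HolB p w F B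
  eqv : ∀ g y, F (g • y) = F y + c g
  reg : ∃ y, Reg (n := n) p F y
  conn : GenConn (n := n) p F
  lat : LatChar Γ q c
  ker : ∀ g, g ∈ K ↔ c g = 0
  fg : Group.FG K
  nvi : ¬ VirtIndicable K
  fr : FinRepIn Γ K

/-- A real structure of `W`, commuting with the representation. -/
structure IsJ (π : Γ →* (W ≃ₗᵢ[ℂ] W)) (J : W →SL[starRingEnd ℂ] W) : Prop where
  invol : ∀ x, J (J x) = x
  inner : ∀ x y, ⟪J x, J y⟫_ℂ = ⟪y, x⟫_ℂ
  comm : ∀ g x, J (π g x) = π g (J x)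

/-- `G` is a potential of `Θ` along the fibres of `F`, near `y`. -/
structure JPot (p : E → X) (F : E → Cm q) (Θ : E → Chart n X → (Cm n →L[ℂ] W)) (y : E)
    (e : Chart n X) (G : Cm n → W) : Prop where
  an : AnalyticAt ℂ G (e (p y))
  pot : ∀ᶠ y' in 𝓝 y, ∀ ξ ∈ VS p F y' e, fderiv ℂ G (e (p y')) ξ = Θ y' e ξ

/-- `u = G + J G + const` locally on the fibre `F = t`, for every potential `G` of `Θ` along it. -/
def VPotJ (p : E → X) (F : E → Cm q) (t : Cm q) (Θ : E → Chart n X → (Cm n →L[ℂ] W))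
    (J : W →SL[starRingEnd ℂ] W) (u : E → W) : Prop :=
  ∀ (y : E) (e : Chart n X) (G : Cm n → W), F y = t → At e (p y) → AnalyticAt ℂ G (e (p y)) →
    (∀ᶠ y' in 𝓝 y, F y' = t → ∀ ξ ∈ VS p F y' e, fderiv ℂ G (e (p y')) ξ = Θ y' e ξ) →
    ∃ c₀ : W, ∀ᶠ y' in 𝓝 y, F y' = t → u y' = G (e (p y')) + J (G (e (p y'))) + c₀

/-- **The output of the limit**, with the real structure. -/
structure JDat (p : E → X) (F : E → Cm q) (c : Γ → Cm q) (π : Γ →* (W ≃ₗᵢ[ℂ] W))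
    (S : E → Chart n X → Cm n [⋀^Fin (q + 1)]→L[ℂ] W) (Θ : E → Chart n X → (Cm n →L[ℂ] W))
    (J : W →SL[starRingEnd ℂ] W) : Prop where
  rel : SRel p F π S Θ
  isJ : IsJ π J
  total : ∀ x : W, (∀ y e, At e (p y) → ∀ ξ, ⟪x, S y e ξ⟫_ℂ = 0) →
    (∀ y e, At e (p y) → ∀ ξ, ⟪J x, S y e ξ⟫_ℂ = 0) → x = 0
  pot : ∀ t : Cm q, IsConnected (F ⁻¹' {t}) → (∀ y, F y = t → Reg (n := n) p F y) →
    ∃ u : E → W, (∀ g, c g = 0 → ∃ b : W, ∀ y, F y = t → u (g • y) = π g (u y) + b) ∧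
      VPotJ p F t Θ J u

/-- **The two point potential** of `Θ` (`T y y' = u y' - u y` along the fibres over regular values). -/
structure TwoPot (p : E → X) (F : E → Cm q) (Θ : E → Chart n X → (Cm n →L[ℂ] W))
    (J : W →SL[starRingEnd ℂ] W) (T : E → E → W) : Prop where
  add : ∀ y y' y'', F y = F y' → F y' = F y'' → F y ∈ RV n p F → T y y' + T y' y'' = T y y''
  loc : ∀ (y y' : E) (e e' : Chart n X) (G G' : Cm n → W), F y = F y' → F y ∈ RV n p F →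
    At e (p y) → At e' (p y') → JPot p F Θ y e G → JPot p F Θ y' e' G' →
    ∃ a : Cm q → W, AnalyticAt ℂ a (F y) ∧ ∀ᶠ z in 𝓝 (y, y'), F z.1 = F z.2 →
      T z.1 z.2 = (G' (e' (p z.2)) - G (e (p z.1)) + a (F z.1)) +
        J (G' (e' (p z.2)) - G (e (p z.1)) + a (F z.1))

/-- `T` is equivariant. -/
def TEqui (n : ℕ) {X : Type} [TopologicalSpace X] [ChartedSpace (Cm n) X] (p : E → X) (F : E → Cm q)
    (π : Γ →* (W ≃ₗᵢ[ℂ] W)) (T : E → E → W) : Prop :=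
  ∀ (g : Γ) y y', F y = F y' → F y ∈ RV n p F → T (g • y) (g • y') = π g (T y y')

/-- `g` acts trivially on the affine Hilbert bundle over the regular values. -/
def AffTriv (n : ℕ) {X : Type} [TopologicalSpace X] [ChartedSpace (Cm n) X] (p : E → X)
    (F : E → Cm q) (π : Γ →* (W ≃ₗᵢ[ℂ] W)) (T : E → E → W) (g : Γ) : Prop :=
  π g = 1 ∧ ∀ y, F y ∈ RV n p F → T y (g • y) = 0

/-- **Rigidity** (consequence of G2 and totality): elements of the kernel of the periods which are near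
the identity on the sheets near all good points act trivially on `W`. -/
def DK1 (p : E → X) (F : E → Cm q) (c : Γ → Cm q) (m : ℕ)
    (v : E → Chart n X → (Fin (q + r) → Cm n) → H)
    (U : Γ → (H →ₗᵢ[ℂ] H)) (π : Γ →* (W ≃ₗᵢ[ℂ] W)) (Θ : E → Chart n X → (Cm n →L[ℂ] W))
    (N : Cm k →L[ℂ] Cm q) (s : ℕ) (𝒢 : Set E) : Prop :=
  ∀ g : ℕ → Γ, (∀ j, c (g j) = 0) → NearId p F m v U π Θ c N s 𝒢 g → ∀ᶠ j in atTop, π (g j) = 1

/-- The part of the sheet of `D` through `y₀`, of radius `R`. -/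
def Comp (p : E → X) (v : E → Chart n X → (Fin (q + r) → Cm n) → H) (F : E → Cm q)
    (D : LeafDat q s k H) (R : ℝ) (y₀ : E) : Set E :=
  connectedComponentIn {y | NZ p v y ∧ ∃ b ∈ ball D.b₀ R, Sh p v F D y b} y₀

/-- `D` is the leaf space data of the leaf chart `(e, b, β, γ, τ)` at `y`. -/
structure IsLD (p : E → X) (y : E) (e : Chart n X) (b : Cm n → Cm (q + r))
    (β : Cm (q + r) → Cm s) (γ : Cm s → H) (τ : Cm s → Cm q) (N : Cm k →L[ℂ] Cm q)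
    (D : LeafDat q s k H) : Prop where
  b₀ : D.b₀ = β (b (e (p y)))
  γ : D.γ = γ
  t : D.t = τ
  N : ∀ x, D.N x = N

end

/-! ### (T1) -/

/-- **(T1)**, the limit -/
def LimJStmt : Prop :=
  ∀ (n q : ℕ) (X : Type) [TopologicalSpace X] [T2Space X] [CompactSpace X] [ConnectedSpace X]
    [ChartedSpace (Cm n) X] [IsManifold 𝓘(ℂ, Cm n) ω X]
    (w : Chart n X → Cm n → Matrix (Fin n) (Fin n) ℂ) (E Γ : Type) [TopologicalSpace E]
    [ConnectedSpace E] [Group Γ] [MulAction Γ E] (p : E → X) (F : E → Cm q) (c : Γ → Cm q)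
    (K : Subgroup Γ), Std w p F c K → 1 ≤ q → ¬ Kazhdan K →
    ∀ (ι : Type) [Fintype ι] (ζ : ι → Γ), (∀ i g, ζ i * g = g * ζ i) →
    ∃ (W : Type) (_ : NormedAddCommGroup W) (_ : InnerProductSpace ℂ W) (_ : CompleteSpace W)
      (π : Γ →* (W ≃ₗᵢ[ℂ] W)) (S : E → Chart n X → Cm n [⋀^Fin (q + 1)]→L[ℂ] W)
      (Θ : E → Chart n X → (Cm n →L[ℂ] W)) (J : W →SL[starRingEnd ℂ] W),
      JDat p F c π S Θ J ∧ ∀ i, π (ζ i) = 1

/-- **(T0)**, G2 with its conclusion for all fibres -/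
def DKG'Stmt : Prop :=
  ∀ (n q r k s m : ℕ) (X : Type) [TopologicalSpace X] [T2Space X] [CompactSpace X]
    [ConnectedSpace X] [ChartedSpace (Cm n) X] [IsManifold 𝓘(ℂ, Cm n) ω X]
    (w : Chart n X → Cm n → Matrix (Fin n) (Fin n) ℂ), IsKahler w → ∀ (E Γ : Type)
    [TopologicalSpace E] [ConnectedSpace E] [Group Γ] [MulAction Γ E] (p : E → X), IsGalois Γ p →
    ∀ (F : E → Cm q) (c : Γ → Cm q) (K : Subgroup Γ), (∃ B, HolB p w F B) →
      (∀ g y, F (g • y) = F y + c g) → KPkg Γ q c K → FinRepIn Γ K → GenConn (n := n) p F →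
      (∃ y, Reg (n := n) p F y) →
    ∀ (W H : Type) [NormedAddCommGroup W] [InnerProductSpace ℂ W] [CompleteSpace W]
      [NormedAddCommGroup H] [InnerProductSpace ℂ H] [CompleteSpace H]
      (π : Γ →* (W ≃ₗᵢ[ℂ] W)) (Θ : E → Chart n X → (Cm n →L[ℂ] W)) (M₀ : Set (Cm q)),
      IsMeagre M₀ → ThE p F K π Θ M₀ →
    ∀ (v : E → Chart n X → (Fin (q + r) → Cm n) → H) (U : Γ → (H →ₗᵢ[ℂ] H))
      (N : Cm k →L[ℂ] Cm q) (𝒢 : Set E), LeafE s p F m v U π Θ N 𝒢 →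
    ∀ g : ℕ → Γ, (∀ j, c (g j) = 0) → NearId p F m v U π Θ c N s 𝒢 g →
    ∀ᶠ j in atTop, ∀ y e, Reg (n := n) p F y → At e (p y) → ∀ ξ ∈ VS p F y e,
      π (g j) (Θ y e ξ) = Θ y e ξ

/-! ### (T2), (T3) -/

/-- **(T2')**, what follows from `JDat`: `ThE`, local potentials, totality -/
def ThStmt : Prop :=
  ∀ (n q : ℕ) (X : Type) [TopologicalSpace X] [T2Space X] [CompactSpace X] [ConnectedSpace X]
    [ChartedSpace (Cm n) X] [IsManifold 𝓘(ℂ, Cm n) ω X]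
    (w : Chart n X → Cm n → Matrix (Fin n) (Fin n) ℂ) (E Γ : Type) [TopologicalSpace E]
    [ConnectedSpace E] [Group Γ] [MulAction Γ E] (p : E → X) (F : E → Cm q) (c : Γ → Cm q)
    (K : Subgroup Γ), Std w p F c K →
    ∀ (W : Type) [NormedAddCommGroup W] [InnerProductSpace ℂ W] [CompleteSpace W]
      (π : Γ →* (W ≃ₗᵢ[ℂ] W)) (S : E → Chart n X → Cm n [⋀^Fin (q + 1)]→L[ℂ] W)
      (Θ : E → Chart n X → (Cm n →L[ℂ] W)) (J : W →SL[starRingEnd ℂ] W), JDat p F c π S Θ J →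
    IsMeagre (RV n p F)ᶜ ∧ ThE p F K π Θ (RV n p F)ᶜ ∧
    (∀ y e, Reg (n := n) p F y → At e (p y) → ∃ G, JPot p F Θ y e G) ∧
    (∀ x : W, (∀ y e, Reg (n := n) p F y → At e (p y) → ∀ ξ ∈ VS p F y e, ⟪x, Θ y e ξ⟫_ℂ = 0) →
      (∀ y e, Reg (n := n) p F y → At e (p y) → ∀ ξ ∈ VS p F y e, ⟪J x, Θ y e ξ⟫_ℂ = 0) → x = 0) ∧
    ∀ g, (∀ y e, Reg (n := n) p F y → At e (p y) → ∀ ξ ∈ VS p F y e,
      π g (Θ y e ξ) = Θ y e ξ) → π g = 1

/-- **(T2)**, the two point potential -/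
def TwoStmt : Prop :=
  ∀ (n q : ℕ) (X : Type) [TopologicalSpace X] [T2Space X] [CompactSpace X] [ConnectedSpace X]
    [ChartedSpace (Cm n) X] [IsManifold 𝓘(ℂ, Cm n) ω X]
    (w : Chart n X → Cm n → Matrix (Fin n) (Fin n) ℂ) (E Γ : Type) [TopologicalSpace E]
    [ConnectedSpace E] [Group Γ] [MulAction Γ E] (p : E → X) (F : E → Cm q) (c : Γ → Cm q)
    (K : Subgroup Γ), Std w p F c K →
    ∀ (W : Type) [NormedAddCommGroup W] [InnerProductSpace ℂ W] [CompleteSpace W]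
      (π : Γ →* (W ≃ₗᵢ[ℂ] W)) (S : E → Chart n X → Cm n [⋀^Fin (q + 1)]→L[ℂ] W)
      (Θ : E → Chart n X → (Cm n →L[ℂ] W)) (J : W →SL[starRingEnd ℂ] W), JDat p F c π S Θ J →
    ∃ T : E → E → W, TwoPot p F Θ J T ∧ TEqui n p F π T

/-- **(T3)**, regular values: nothing is separated by `F⁻¹(RVᶜ)` and by thin sets -/
def SepStmt : Prop :=
  ∀ (n q : ℕ) (X : Type) [TopologicalSpace X] [T2Space X] [CompactSpace X] [ConnectedSpace X]
    [ChartedSpace (Cm n) X] [IsManifold 𝓘(ℂ, Cm n) ω X]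
    (w : Chart n X → Cm n → Matrix (Fin n) (Fin n) ℂ) (E Γ : Type) [TopologicalSpace E]
    [ConnectedSpace E] [Group Γ] [MulAction Γ E] (p : E → X) (F : E → Cm q) (c : Γ → Cm q)
    (K : Subgroup Γ), Std w p F c K →
    IsOpen (RV n p F) ∧ Dense (RV n p F) ∧ IsPreconnected (RV n p F) ∧
    (∀ t ∈ RV n p F, IsConnected (F ⁻¹' {t})) ∧ (∀ g, ∀ t ∈ RV n p F, t + c g ∈ RV n p F) ∧
    ∀ 𝒢 : Set E, Thin n p 𝒢 → ∀ O : Set E, IsOpen O → IsPreconnected O →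
      IsPreconnected (O ∩ 𝒢 ∩ F ⁻¹' RV n p F) ∧ O ⊆ closure (O ∩ 𝒢 ∩ F ⁻¹' RV n p F)

/-! ### (T4) -/

/-- **(T4a)**: the displacements `T y (κ • y)` are constant along the leaves -/
def LeafConstStmt : Prop :=
  ∀ (n q r k s m : ℕ) (X : Type) [TopologicalSpace X] [T2Space X] [CompactSpace X]
    [ConnectedSpace X] [ChartedSpace (Cm n) X] [IsManifold 𝓘(ℂ, Cm n) ω X]
    (w : Chart n X → Cm n → Matrix (Fin n) (Fin n) ℂ) (E Γ : Type)
    [TopologicalSpace E] [ConnectedSpace E] [Group Γ] [MulAction Γ E] (p : E → X)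
    (F : E → Cm q) (c : Γ → Cm q) (K : Subgroup Γ), Std w p F c K →
    ∀ (W H : Type) [NormedAddCommGroup W] [InnerProductSpace ℂ W] [CompleteSpace W]
      [NormedAddCommGroup H] [InnerProductSpace ℂ H] [CompleteSpace H]
      (π : Γ →* (W ≃ₗᵢ[ℂ] W)) (S : E → Chart n X → Cm n [⋀^Fin (q + 1)]→L[ℂ] W)
      (Θ : E → Chart n X → (Cm n →L[ℂ] W)) (J : W →SL[starRingEnd ℂ] W) (T : E → E → W),
      JDat p F c π S Θ J → TwoPot p F Θ J T → TEqui n p F π T →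
    ∀ (v : E → Chart n X → (Fin (q + r) → Cm n) → H) (U : Γ → (H →ₗᵢ[ℂ] H))
      (N : Cm k →L[ℂ] Cm q) (𝒢 : Set E), LeafE s p F m v U π Θ N 𝒢 →
    ∀ z ∈ 𝒢, F z ∈ RV n p F → ∀ (e : Chart n X) (b : Cm n → Cm (q + r)) (F0 : Cm (q + r) → W)
        (β : Cm (q + r) → Cm s) (γ : Cm s → H) (τ : Cm s → Cm q),
        LC p F m v U π Θ N z e b F0 β γ τ →
    ∃ N₀ ∈ 𝓝 z, ∀ y ∈ N₀, ∀ y' ∈ N₀, β (b (e (p y))) = β (b (e (p y'))) →
      ∀ κ : Γ, c κ = 0 → T y (κ • y) = T y' (κ • y')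

/-- the displacements are functions of the sheet parameter on the part of radius `R` of the sheet -/
def Star {n q r k s : ℕ} {X E Γ W H : Type} [TopologicalSpace X] [ChartedSpace (Cm n) X]
    [TopologicalSpace E] [Group Γ] [MulAction Γ E] [NormedAddCommGroup W] [InnerProductSpace ℂ W]
    [NormedAddCommGroup H] [InnerProductSpace ℂ H] (p : E → X) (F : E → Cm q) (c : Γ → Cm q)
    (v : E → Chart n X → (Fin (q + r) → Cm n) → H) (T : E → E → W) (D : LeafDat q s k H) (R : ℝ)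
    (y₀ : E) : Prop :=
  ∀ y ∈ Comp p v F D R y₀, ∀ y' ∈ Comp p v F D R y₀, F y ∈ RV n p F → F y' ∈ RV n p F →
    ∀ b ∈ ball D.b₀ R, Sh p v F D y b → Sh p v F D y' b → ∀ κ : Γ, c κ = 0 →
      T y (κ • y) = T y' (κ • y')

/-- **(T4b)**: the displacements are functions of the sheet parameter, on the component of the sheet -/
def StarStmt : Prop :=
  ∀ (n q r k s m : ℕ) (X : Type) [TopologicalSpace X] [T2Space X] [CompactSpace X]
    [ConnectedSpace X] [ChartedSpace (Cm n) X] [IsManifold 𝓘(ℂ, Cm n) ω X]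
    (w : Chart n X → Cm n → Matrix (Fin n) (Fin n) ℂ) (E Γ : Type)
    [TopologicalSpace E] [ConnectedSpace E] [Group Γ] [MulAction Γ E] (p : E → X)
    (F : E → Cm q) (c : Γ → Cm q) (K : Subgroup Γ), Std w p F c K →
    ∀ (W H : Type) [NormedAddCommGroup W] [InnerProductSpace ℂ W] [CompleteSpace W]
      [NormedAddCommGroup H] [InnerProductSpace ℂ H] [CompleteSpace H]
      (π : Γ →* (W ≃ₗᵢ[ℂ] W)) (S : E → Chart n X → Cm n [⋀^Fin (q + 1)]→L[ℂ] W)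
      (Θ : E → Chart n X → (Cm n →L[ℂ] W)) (J : W →SL[starRingEnd ℂ] W) (T : E → E → W),
      JDat p F c π S Θ J → TwoPot p F Θ J T → TEqui n p F π T →
    ∀ (v : E → Chart n X → (Fin (q + r) → Cm n) → H) (U : Γ → (H →ₗᵢ[ℂ] H))
      (N : Cm k →L[ℂ] Cm q) (𝒢 : Set E), LeafE s p F m v U π Θ N 𝒢 →
    ∀ y₀ ∈ 𝒢, F y₀ ∈ RV n p F → ∀ (e : Chart n X) (b : Cm n → Cm (q + r)) (F0 : Cm (q + r) → W)
        (β : Cm (q + r) → Cm s) (γ : Cm s → H) (τ : Cm s → Cm q),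
        LC p F m v U π Θ N y₀ e b F0 β γ τ →
    ∀ D : LeafDat q s k H, IsLD p y₀ e b β γ τ N D →
    ∃ R₁ > 0, ∀ R, 0 < R → R ≤ R₁ → Star p F c v T D R y₀

/-! ### (T5), (T7) -/

/-- **(T5)**: local finiteness of the translates of a clopen part of the sheet, modulo central elements
preserving it; the conclusion is the input of `H988.T.cstkO`. -/
def LFOStmt : Prop :=
  ∀ (n q r k s m : ℕ) (X : Type) [TopologicalSpace X] [T2Space X] [CompactSpace X]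
    [ConnectedSpace X] [ChartedSpace (Cm n) X] [IsManifold 𝓘(ℂ, Cm n) ω X]
    (w : Chart n X → Cm n → Matrix (Fin n) (Fin n) ℂ) (E Γ : Type)
    [TopologicalSpace E] [ConnectedSpace E] [Group Γ] [MulAction Γ E] (p : E → X)
    (F : E → Cm q) (c : Γ → Cm q) (K : Subgroup Γ), Std w p F c K →
    (∀ g, (∀ h ∈ K, g * h = h * g) → ∀ h, g * h = h * g) →
    ∀ (W H : Type) [NormedAddCommGroup W] [InnerProductSpace ℂ W] [CompleteSpace W]
      [NormedAddCommGroup H] [InnerProductSpace ℂ H] [CompleteSpace H]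
      (π : Γ →* (W ≃ₗᵢ[ℂ] W)) (S : E → Chart n X → Cm n [⋀^Fin (q + 1)]→L[ℂ] W)
      (Θ : E → Chart n X → (Cm n →L[ℂ] W)) (J : W →SL[starRingEnd ℂ] W) (T : E → E → W),
      JDat p F c π S Θ J → TwoPot p F Θ J T → TEqui n p F π T →
      (∀ g, (∀ h ∈ K, g * h = h * g) → π g = 1) → (∀ g ∈ K, AffTriv n p F π T g → g = 1) →
    ∀ (v : E → Chart n X → (Fin (q + r) → Cm n) → H) (U : Γ → (H →ₗᵢ[ℂ] H))
      (N : Cm k →L[ℂ] Cm q) (𝒢 : Set E), LeafE s p F m v U π Θ N 𝒢 →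
      DK1 p F c m v U π Θ N s 𝒢 →
    ∃ (D : LeafDat q s k H) (y₀ : E) (r₀ : ℝ) (O : Set E) (S₀ : Subgroup Γ), (∀ x, D.N x = N) ∧
      LeafAt m p v F D y₀ ∧ 0 < r₀ ∧ H988.T.ClPart p v F D r₀ O ∧ y₀ ∈ O ∧
      (∀ g ∈ S₀, ∀ h ∈ K, g * h = h * g) ∧ (∀ g ∈ S₀, ∀ y ∈ O, NZ p v y → g • y ∈ O) ∧
      (∀ g ∈ S₀, ∀ y ∈ O, ∀ b ∈ ball D.b₀ r₀, NZ p v y → Sh p v F D y b →
        Sh p v F D (g • y) b) ∧
      ∀ K₀ : Set E, IsCompact K₀ → (∀ y ∈ K₀, NZ p v y) →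
        {a : Γ ⧸ S₀ | ∃ g : Γ, (g : Γ ⧸ S₀) = a ∧ ∃ y ∈ K₀, g⁻¹ • y ∈ O}.Finite

/-- **(T7)**, [C]⁺: the isotrivial case is impossible -/
def CPlusStmt : Prop :=
  ∀ (n q r k s m : ℕ) (X : Type) [TopologicalSpace X] [T2Space X] [CompactSpace X]
    [ConnectedSpace X] [ChartedSpace (Cm n) X] [IsManifold 𝓘(ℂ, Cm n) ω X]
    (w : Chart n X → Cm n → Matrix (Fin n) (Fin n) ℂ) (E Γ : Type)
    [TopologicalSpace E] [ConnectedSpace E] [Group Γ] [MulAction Γ E] (p : E → X)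
    (F : E → Cm q) (c : Γ → Cm q) (K : Subgroup Γ), Std w p F c K → NPkg0 Γ q c K →
    ∀ (W H : Type) [NormedAddCommGroup W] [InnerProductSpace ℂ W] [CompleteSpace W]
      [NormedAddCommGroup H] [InnerProductSpace ℂ H] [CompleteSpace H]
      (π : Γ →* (W ≃ₗᵢ[ℂ] W)) (S : E → Chart n X → Cm n [⋀^Fin (q + 1)]→L[ℂ] W)
      (Θ : E → Chart n X → (Cm n →L[ℂ] W)) (J : W →SL[starRingEnd ℂ] W) (T : E → E → W),
      JDat p F c π S Θ J → TwoPot p F Θ J T → TEqui n p F π T →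
      (∀ g, (∀ h ∈ K, g * h = h * g) → π g = 1) → (∀ g ∈ K, AffTriv n p F π T g → g = 1) →
    ∀ (v : E → Chart n X → (Fin (q + r) → Cm n) → H) (U : Γ → (H →ₗᵢ[ℂ] H))
      (N : Cm k →L[ℂ] Cm q) (𝒢 : Set E), IsoE s p F m v U π Θ N 𝒢 → False

/-! ### (T8) -/

/-- **(T8)**, local finiteness in the case of full rank, modulo `{c = 0, π = 1}` -/
def LFKStmt : Prop :=
  ∀ (n q r m : ℕ) (X : Type) [TopologicalSpace X] [T2Space X] [CompactSpace X]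
    [ConnectedSpace X] [ChartedSpace (Cm n) X] [IsManifold 𝓘(ℂ, Cm n) ω X]
    (w : Chart n X → Cm n → Matrix (Fin n) (Fin n) ℂ) (E Γ : Type)
    [TopologicalSpace E] [ConnectedSpace E] [Group Γ] [MulAction Γ E] (p : E → X)
    (F : E → Cm q) (c : Γ → Cm q) (K : Subgroup Γ), Std w p F c K →
    ∀ (W H : Type) [NormedAddCommGroup W] [InnerProductSpace ℂ W] [CompleteSpace W]
      [NormedAddCommGroup H] [InnerProductSpace ℂ H] [CompleteSpace H]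
      (π : Γ →* (W ≃ₗᵢ[ℂ] W)) (Θ : E → Chart n X → (Cm n →L[ℂ] W))
      (v : E → Chart n X → (Fin (q + r) → Cm n) → H) (U : Γ → (H →ₗᵢ[ℂ] H))
      (N : Cm 0 →L[ℂ] Cm q) (𝒢 : Set E), LeafE (q + r) p F m v U π Θ N 𝒢 →
      DK1 p F c m v U π Θ N (q + r) 𝒢 →
    ∀ (D : LeafDat q (q + r) 0 H), (∀ x, D.N x = N) →
    ∀ S₁ : Subgroup Γ, (∀ g, g ∈ S₁ ↔ c g = 0 ∧ π g = 1) →
    ∃ r₀ > 0, ∀ K₀ : Set E, IsCompact K₀ → (∀ y ∈ K₀, NZ p v y) →
      {a : Γ ⧸ S₁ | ∃ g : Γ, (g : Γ ⧸ S₁) = a ∧ ∃ y ∈ K₀, ∃ b ∈ ball D.b₀ r₀,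
        Sh p v F D (g⁻¹ • y) b}.Finite

/-! ### (T9) -/

/-- **(T9a)**: no vectors fixed by a subgroup of finite index of `K` -/
def FixStmt : Prop :=
  ∀ (n q : ℕ) (X : Type) [TopologicalSpace X] [T2Space X] [CompactSpace X] [ConnectedSpace X]
    [ChartedSpace (Cm n) X] [IsManifold 𝓘(ℂ, Cm n) ω X]
    (w : Chart n X → Cm n → Matrix (Fin n) (Fin n) ℂ) (E Γ : Type) [TopologicalSpace E]
    [ConnectedSpace E] [Group Γ] [MulAction Γ E] (p : E → X) (F : E → Cm q) (c : Γ → Cm q)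
    (K : Subgroup Γ), Std w p F c K →
    ∀ (W : Type) [NormedAddCommGroup W] [InnerProductSpace ℂ W] [CompleteSpace W]
      (π : Γ →* (W ≃ₗᵢ[ℂ] W)) (S : E → Chart n X → Cm n [⋀^Fin (q + 1)]→L[ℂ] W)
      (Θ : E → Chart n X → (Cm n →L[ℂ] W)) (J : W →SL[starRingEnd ℂ] W), JDat p F c π S Θ J →
    ∀ K' : Subgroup Γ, K' ≤ K → (K'.subgroupOf K).FiniteIndex →
    ∀ x : W, (∀ g ∈ K', π g x = x) → x = 0

/-- **(T9b)**: elements commuting with a subgroup of finite index of `K` act trivially -/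
def CentStmt : Prop :=
  ∀ (n q : ℕ) (X : Type) [TopologicalSpace X] [T2Space X] [CompactSpace X] [ConnectedSpace X]
    [ChartedSpace (Cm n) X] [IsManifold 𝓘(ℂ, Cm n) ω X]
    (w : Chart n X → Cm n → Matrix (Fin n) (Fin n) ℂ) (E Γ : Type) [TopologicalSpace E]
    [ConnectedSpace E] [Group Γ] [MulAction Γ E] (p : E → X) (F : E → Cm q) (c : Γ → Cm q)
    (K : Subgroup Γ), Std w p F c K →
    ∀ (W : Type) [NormedAddCommGroup W] [InnerProductSpace ℂ W] [CompleteSpace W]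
      (π : Γ →* (W ≃ₗᵢ[ℂ] W)) (S : E → Chart n X → Cm n [⋀^Fin (q + 1)]→L[ℂ] W)
      (Θ : E → Chart n X → (Cm n →L[ℂ] W)) (J : W →SL[starRingEnd ℂ] W) (T : E → E → W),
      JDat p F c π S Θ J → TwoPot p F Θ J T → TEqui n p F π T →
    ∀ K' : Subgroup Γ, K' ≤ K → (K'.subgroupOf K).FiniteIndex →
    ∀ g, c g = 0 → (∀ h ∈ K', g * h = h * g) → AffTriv n p F π T g

/-- **(T9c)**: the quotient of `K` acting on the affine Hilbert bundle does not have property (T) -/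
def NotKazStmt : Prop :=
  ∀ (n q : ℕ) (X : Type) [TopologicalSpace X] [T2Space X] [CompactSpace X] [ConnectedSpace X]
    [ChartedSpace (Cm n) X] [IsManifold 𝓘(ℂ, Cm n) ω X]
    (w : Chart n X → Cm n → Matrix (Fin n) (Fin n) ℂ) (E Γ : Type) [TopologicalSpace E]
    [ConnectedSpace E] [Group Γ] [MulAction Γ E] (p : E → X) (F : E → Cm q) (c : Γ → Cm q)
    (K : Subgroup Γ), Std w p F c K →
    ∀ (W : Type) [NormedAddCommGroup W] [InnerProductSpace ℂ W] [CompleteSpace W]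
      (π : Γ →* (W ≃ₗᵢ[ℂ] W)) (S : E → Chart n X → Cm n [⋀^Fin (q + 1)]→L[ℂ] W)
      (Θ : E → Chart n X → (Cm n →L[ℂ] W)) (J : W →SL[starRingEnd ℂ] W) (T : E → E → W),
      JDat p F c π S Θ J → TwoPot p F Θ J T → TEqui n p F π T →
    ∀ (K₁ : Type) [Group K₁] (φ : K →* K₁), Function.Surjective φ →
      (∀ g : K, φ g = 1 → AffTriv n p F π T g) → ¬ Kazhdan K₁

/-! ### (N): naturality for the group `Γ` of `E → X` -/

section
variable {n q : ℕ} {X E Γ W : Type} [TopologicalSpace X] [ChartedSpace (Cm n) X]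
  [TopologicalSpace E] [Group Γ] [MulAction Γ E]
  [NormedAddCommGroup W] [InnerProductSpace ℂ W]

/-- The output of the limit for the normal subgroup `G` of finite index of `Γ`, natural for `Γ`, in the
charts of `X`. -/
structure JDatN (G : Subgroup Γ) (p : E → X) (F : E → Cm q) (c : Γ → Cm q)
    (ρ : Γ →* (W ≃ₗᵢ[ℂ] W))
    (S : E → Chart n X → Cm n [⋀^Fin (q + 1)]→L[ℂ] W) (Θ : E → Chart n X → (Cm n →L[ℂ] W))
    (J : W →SL[starRingEnd ℂ] W) (T : E → E → W) : Prop where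
  dat : JDat p F (fun g : G => c g) (ρ.comp G.subtype) S Θ J
  isJ : IsJ ρ J
  two : TwoPot p F Θ J T
  equiT : TEqui n p F ρ T
  chg : ∀ y, Reg (n := n) p F y → H625.N.ChgV p F Θ y
  equi : ∀ (γ : Γ) y e, Reg (n := n) p F y → At e (p y) → ∀ ξ ∈ VS p F y e,
    Θ (γ • y) e ξ = ρ γ (Θ y e ξ)

/-- The standing data, natural for `Γ`; `K` is the kernel of the periods in `G`. -/
structure StdN (w : Chart n X → Cm n → Matrix (Fin n) (Fin n) ℂ) (G : Subgroup Γ) (p : E → X)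
    (F : E → Cm q) (A : Γ →* (Cm q ≃ₗ[ℂ] Cm q)) (c : Γ → Cm q) (K : Subgroup Γ) : Prop where
  kah : IsKahler w
  gal : IsGalois Γ p
  hol : ∃ B, HolB p w F B
  eqv : ∀ g y, F (g • y) = A g (F y) + c g
  reg : ∃ y, Reg (n := n) p F y
  conn : GenConn (n := n) p F
  dat : ADat Γ G q A c
  ker : ∀ g, g ∈ K ↔ g ∈ G ∧ c g = 0
  fg : Group.FG K
  nvi : ¬ VirtIndicable K
  fr : FinRepIn Γ K

end

/-- **(N1)** the limit, summed over the translates under `Γ / G`: natural for `Γ`; `Z` is a normal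
subgroup of `Γ` of central elements of `G` which have to act trivially. -/
def LimNStmt : Prop :=
  ∀ (n q : ℕ) (X : Type) [TopologicalSpace X] [T2Space X] [CompactSpace X] [ConnectedSpace X]
    [ChartedSpace (Cm n) X] [IsManifold 𝓘(ℂ, Cm n) ω X]
    (w : Chart n X → Cm n → Matrix (Fin n) (Fin n) ℂ) (E Γ : Type) [TopologicalSpace E]
    [ConnectedSpace E] [Group Γ] [MulAction Γ E] (p : E → X) (F : E → Cm q) (G K : Subgroup Γ)
    (A : Γ →* (Cm q ≃ₗ[ℂ] Cm q)) (c : Γ → Cm q), StdN w G p F A c K → 1 ≤ q → ¬ Kazhdan K →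
    ∀ Z : Subgroup Γ, Z.Normal → Z ≤ G → Group.FG Z → (∀ z ∈ Z, ∀ g ∈ G, z * g = g * z) →
    ∃ (W : Type) (_ : NormedAddCommGroup W) (_ : InnerProductSpace ℂ W) (_ : CompleteSpace W)
      (ρ : Γ →* (W ≃ₗᵢ[ℂ] W)) (S : E → Chart n X → Cm n [⋀^Fin (q + 1)]→L[ℂ] W)
      (Θ : E → Chart n X → (Cm n →L[ℂ] W)) (J : W →SL[starRingEnd ℂ] W) (T : E → E → W),
      JDatN G p F c ρ S Θ J T ∧ ∀ z ∈ Z, ρ z = 1

/-- **(N2)** the data on `(Y, G)`, `Y = E / G` -/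
def PbStmt : Prop :=
  ∀ (n q : ℕ) (X : Type) [TopologicalSpace X] [T2Space X] [CompactSpace X] [ConnectedSpace X]
    [ChartedSpace (Cm n) X] [IsManifold 𝓘(ℂ, Cm n) ω X]
    (w : Chart n X → Cm n → Matrix (Fin n) (Fin n) ℂ) (E Γ : Type) [TopologicalSpace E]
    [ConnectedSpace E] [Group Γ] [MulAction Γ E] (p : E → X) (F : E → Cm q) (G K : Subgroup Γ)
    (A : Γ →* (Cm q ≃ₗ[ℂ] Cm q)) (c : Γ → Cm q), StdN w G p F A c K →
    ∀ (Y : Type) [TopologicalSpace Y] [T2Space Y] [CompactSpace Y] [ConnectedSpace Y]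
      [ChartedSpace (Cm n) Y] [IsManifold 𝓘(ℂ, Cm n) ω Y] (pY : E → Y) (π : Y → X),
      H885.Etale n π → IsCoveringMap π → IsGalois G pY → (∀ y, π (pY y) = p y) →
    Std (H885.pull π w) pY F (fun g : G => c g) (K.subgroupOf G) ∧ RV n pY F = RV n p F ∧
    ∀ (W : Type) [NormedAddCommGroup W] [InnerProductSpace ℂ W] [CompleteSpace W]
      (ρ : Γ →* (W ≃ₗᵢ[ℂ] W)) (S : E → Chart n X → Cm n [⋀^Fin (q + 1)]→L[ℂ] W)
      (Θ : E → Chart n X → (Cm n →L[ℂ] W)) (J : W →SL[starRingEnd ℂ] W) (T : E → E → W),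
      JDatN G p F c ρ S Θ J T →
      JDat pY F (fun g : G => c g) (ρ.comp G.subtype) (H625.N.pb π S) (H625.N.pb π Θ) J ∧
      TwoPot pY F (H625.N.pb π Θ) J T ∧ TEqui n pY F (ρ.comp G.subtype) T

/-- **(N3)** descent to the quotient by a normal subgroup acting trivially -/
def DescStmt : Prop :=
  ∀ (n q : ℕ) (X : Type) [TopologicalSpace X] [T2Space X] [CompactSpace X] [ConnectedSpace X]
    [ChartedSpace (Cm n) X] [IsManifold 𝓘(ℂ, Cm n) ω X]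
    (w : Chart n X → Cm n → Matrix (Fin n) (Fin n) ℂ) (E Γ : Type) [TopologicalSpace E]
    [ConnectedSpace E] [Group Γ] [MulAction Γ E] (p : E → X) (F : E → Cm q) (G K : Subgroup Γ)
    (A : Γ →* (Cm q ≃ₗ[ℂ] Cm q)) (c : Γ → Cm q), StdN w G p F A c K →
    ∀ (W : Type) [NormedAddCommGroup W] [InnerProductSpace ℂ W] [CompleteSpace W]
      (ρ : Γ →* (W ≃ₗᵢ[ℂ] W)) (S : E → Chart n X → Cm n [⋀^Fin (q + 1)]→L[ℂ] W)
      (Θ : E → Chart n X → (Cm n →L[ℂ] W)) (J : W →SL[starRingEnd ℂ] W) (T : E → E → W),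
      JDatN G p F c ρ S Θ J T →
    ∀ (M : Subgroup Γ) [M.Normal], M ≤ K → (∀ g ∈ M, AffTriv n p F ρ T g) →
    ∃ (A₁ : Γ ⧸ M →* (Cm q ≃ₗ[ℂ] Cm q)) (c₁ : Γ ⧸ M → Cm q)
      (E₁ : Type) (_ : TopologicalSpace E₁) (_ : ConnectedSpace E₁) (_ : MulAction (Γ ⧸ M) E₁)
      (p₁ : E₁ → X) (F₁ : E₁ → Cm q) (ρ₁ : Γ ⧸ M →* (W ≃ₗᵢ[ℂ] W))
      (S₁ : E₁ → Chart n X → Cm n [⋀^Fin (q + 1)]→L[ℂ] W) (Θ₁ : E₁ → Chart n X → (Cm n →L[ℂ] W))
      (T₁ : E₁ → E₁ → W),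
      StdN w (G.map (QuotientGroup.mk' M)) p₁ F₁ A₁ c₁ (K.map (QuotientGroup.mk' M)) ∧
      JDatN (G.map (QuotientGroup.mk' M)) p₁ F₁ c₁ ρ₁ S₁ Θ₁ J T₁ ∧
      (∀ g : Γ, c₁ (g : Γ ⧸ M) = c g) ∧ (∀ g : Γ, ρ₁ (g : Γ ⧸ M) = ρ g) ∧
      ∀ g ∈ K, (AffTriv n p₁ F₁ ρ₁ T₁ (g : Γ ⧸ M) ↔ AffTriv n p F ρ T g)

/-- **(N4)** the end: leaf data of full rank, natural for `Γ`, with local finiteness modulo
`{c = 0, ρ = 1}`, contradict `NoV n X` -/
def EndStmt : Prop :=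
  ∀ (n q : ℕ) (X : Type) [TopologicalSpace X] [T2Space X] [CompactSpace X] [ConnectedSpace X]
    [ChartedSpace (Cm n) X] [IsManifold 𝓘(ℂ, Cm n) ω X], NoV n X →
    ∀ (w : Chart n X → Cm n → Matrix (Fin n) (Fin n) ℂ) (E Γ : Type) [TopologicalSpace E]
    [ConnectedSpace E] [Group Γ] [MulAction Γ E] (p : E → X) (F : E → Cm q) (G K : Subgroup Γ)
    (A : Γ →* (Cm q ≃ₗ[ℂ] Cm q)) (c : Γ → Cm q), StdN w G p F A c K →
    ∀ (W : Type) [NormedAddCommGroup W] [InnerProductSpace ℂ W] [CompleteSpace W]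
      (ρ : Γ →* (W ≃ₗᵢ[ℂ] W)) (S : E → Chart n X → Cm n [⋀^Fin (q + 1)]→L[ℂ] W)
      (Θ : E → Chart n X → (Cm n →L[ℂ] W)) (J : W →SL[starRingEnd ℂ] W) (T : E → E → W),
      JDatN G p F c ρ S Θ J T →
    ∀ (Y : Type) [TopologicalSpace Y] [T2Space Y] [CompactSpace Y] [ConnectedSpace Y]
      [ChartedSpace (Cm n) Y] [IsManifold 𝓘(ℂ, Cm n) ω Y] (pY : E → Y) (π : Y → X),
      H885.Etale n π → IsCoveringMap π → IsGalois G pY → (∀ y, π (pY y) = p y) →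
    ∀ (r m : ℕ) (H : Type) [NormedAddCommGroup H] [InnerProductSpace ℂ H] [CompleteSpace H]
      (v : E → Chart n Y → (Fin (q + (r + 1)) → Cm n) → H) (U : G → (H →ₗᵢ[ℂ] H))
      (N : Cm 0 →L[ℂ] Cm q) (𝒢 : Set E),
      LeafE (q + (r + 1)) pY F m v U (ρ.comp G.subtype) (H625.N.pb π Θ) N 𝒢 → False

/-! ### (I): the induction -/

/-- the complete data in program N: cent, central, faithful, trivial on the centralizer -/
structure Full {n q : ℕ} {X E Γ W : Type} [TopologicalSpace X] [ChartedSpace (Cm n) X]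
    [TopologicalSpace E] [Group Γ] [MulAction Γ E] [NormedAddCommGroup W] [InnerProductSpace ℂ W]
    (w : Chart n X → Cm n → Matrix (Fin n) (Fin n) ℂ) (G : Subgroup Γ) (p : E → X)
    (F : E → Cm q) (A : Γ →* (Cm q ≃ₗ[ℂ] Cm q)) (c : Γ → Cm q) (K : Subgroup Γ)
    (ρ : Γ →* (W ≃ₗᵢ[ℂ] W)) (S : E → Chart n X → Cm n [⋀^Fin (q + 1)]→L[ℂ] W)
    (Θ : E → Chart n X → (Cm n →L[ℂ] W)) (J : W →SL[starRingEnd ℂ] W) (T : E → E → W) :
    Prop where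
  std : StdN w G p F A c K
  nkaz : ¬ Kazhdan K
  dat : JDatN G p F c ρ S Θ J T
  faith : ∀ g ∈ K, AffTriv n p F ρ T g → g = 1
  cent : ∀ K' : Subgroup Γ, K' ≤ K → (K'.subgroupOf K).FiniteIndex →
    ∀ g ∈ K, (∀ h ∈ K', g * h = h * g) → g = 1
  triv : ∀ g ∈ G, (∀ h ∈ K, g * h = h * g) → ρ g = 1

/-- **(I1)**: every set of standing data (natural for `Γ`) has a quotient with complete data, for the
same `q` -/
def FullStmt : Prop :=
  ∀ (n q : ℕ) (X : Type) [TopologicalSpace X] [T2Space X] [CompactSpace X] [ConnectedSpace X]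
    [ChartedSpace (Cm n) X] [IsManifold 𝓘(ℂ, Cm n) ω X]
    (w : Chart n X → Cm n → Matrix (Fin n) (Fin n) ℂ) (E Γ : Type) [TopologicalSpace E]
    [ConnectedSpace E] [Group Γ] [MulAction Γ E] (p : E → X) (F : E → Cm q) (G K : Subgroup Γ)
    (A : Γ →* (Cm q ≃ₗ[ℂ] Cm q)) (c : Γ → Cm q), StdN w G p F A c K → 1 ≤ q → ¬ Kazhdan K →
    ∃ (E₁ Γ₁ : Type) (_ : TopologicalSpace E₁) (_ : ConnectedSpace E₁) (_ : Group Γ₁)
      (_ : MulAction Γ₁ E₁) (p₁ : E₁ → X) (F₁ : E₁ → Cm q) (G₁ K₁ : Subgroup Γ₁)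
      (A₁ : Γ₁ →* (Cm q ≃ₗ[ℂ] Cm q)) (c₁ : Γ₁ → Cm q)
      (W : Type) (_ : NormedAddCommGroup W) (_ : InnerProductSpace ℂ W) (_ : CompleteSpace W)
      (ρ : Γ₁ →* (W ≃ₗᵢ[ℂ] W)) (S : E₁ → Chart n X → Cm n [⋀^Fin (q + 1)]→L[ℂ] W)
      (Θ : E₁ → Chart n X → (Cm n →L[ℂ] W)) (J : W →SL[starRingEnd ℂ] W) (T : E₁ → E₁ → W),
      Full w G₁ p₁ F₁ A₁ c₁ K₁ ρ S Θ J T

/-- **(I2)**: if maximality fails, there are standing data with smaller `q` -/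
def MaxStmt (D : Cls) : Prop :=
  ∀ (n q : ℕ) (X : Type) [TopologicalSpace X] [T2Space X] [CompactSpace X] [ConnectedSpace X]
    [ChartedSpace (Cm n) X] [IsManifold 𝓘(ℂ, Cm n) ω X], D n X →
    ∀ (w : Chart n X → Cm n → Matrix (Fin n) (Fin n) ℂ) (E Γ : Type) [TopologicalSpace E]
    [ConnectedSpace E] [Group Γ] [MulAction Γ E] (p : E → X) (F : E → Cm q) (G K : Subgroup Γ)
    (A : Γ →* (Cm q ≃ₗ[ℂ] Cm q)) (c : Γ → Cm q), StdN w G p F A c K → ¬ Kazhdan K →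
    (∀ g ∈ G, (∀ h ∈ K, g * h = h * g) → c g = 0 → g = 1) →
    ∀ V : Submodule ℂ (Cm q), V ≠ ⊥ →
      (∀ v ∈ V, v ∈ Submodule.span ℝ ({v | ∃ g ∈ G, (∀ k ∈ K, g * k = k * g) ∧ c g = v} ∩
        (V : Set (Cm q)))) →
    ∃ (q₁ : ℕ) (E₁ Γ₁ : Type) (_ : TopologicalSpace E₁) (_ : ConnectedSpace E₁) (_ : Group Γ₁)
      (_ : MulAction Γ₁ E₁) (p₁ : E₁ → X) (F₁ : E₁ → Cm q₁) (G₁ K₁ : Subgroup Γ₁)
      (A₁ : Γ₁ →* (Cm q₁ ≃ₗ[ℂ] Cm q₁)) (c₁ : Γ₁ → Cm q₁), q₁ < q ∧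
      StdN w G₁ p₁ F₁ A₁ c₁ K₁ ∧ ¬ Kazhdan K₁

/-- **(I3)**: the case `q = 0` -/
def ZeroStmt (D : Cls) : Prop :=
  ∀ (n : ℕ) (X : Type) [TopologicalSpace X] [T2Space X] [CompactSpace X] [ConnectedSpace X]
    [ChartedSpace (Cm n) X] [IsManifold 𝓘(ℂ, Cm n) ω X], D n X →
    ∀ (w : Chart n X → Cm n → Matrix (Fin n) (Fin n) ℂ) (E Γ : Type) [TopologicalSpace E]
    [ConnectedSpace E] [Group Γ] [MulAction Γ E] (p : E → X) (F : E → Cm 0) (G K : Subgroup Γ)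
    (A : Γ →* (Cm 0 ≃ₗ[ℂ] Cm 0)) (c : Γ → Cm 0), StdN w G p F A c K → ¬ Kazhdan K → False

end Vale.Agent.P284.H650.T
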