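import Vale.Agent.P284.H650.T.Spec

/-!
# P284 (helper650), T3⁺, (T7): the isotrivial case is impossible
-/

open scoped Manifold ContDiff Topology InnerProductSpace ComplexConjugate
open Filter Set Metric

noncomputable section

set_option linter.unusedSectionVars false

namespace Vale.Agent.P284.H650.T

open Vale.Agent.P272.K Vale.Agent.P284.H894 Vale.Agent.P284.H894.G Vale.Agent.P284.H894.V
  Vale.Agent.P284.H894.W Vale.Agent.P284.H573 Vale.Agent.P284.H213.Grp Vale.Agent.P284.H395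
  Vale.Agent.P284.H619 Vale.Agent.P284.H625 Vale.Agent.P284.H378 Vale.Agent.P284.H478.G
  Vale.Agent.P284.H988.N Vale.Agent.P284.H494 Vale.Agent.P284.H494.N Vale.Agent.P284.H501.Core
  Vale.Agent.P284.H119.Kaz Vale.Agent.P284.H213.Q Vale.Agent.P284.H837.N

section
variable {n q : ℕ} {X : Type} [TopologicalSpace X] [T2Space X] [CompactSpace X] [ConnectedSpace X]
  [ChartedSpace (Cm n) X] [IsManifold 𝓘(ℂ, Cm n) ω X]
  {w : Chart n X → Cm n → Matrix (Fin n) (Fin n) ℂ} {E Γ : Type} [TopologicalSpace E]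
  [ConnectedSpace E] [Group Γ] [MulAction Γ E] {p : E → X} {F : E → Cm q} {c : Γ → Cm q}
  {K : Subgroup Γ}

theorem Std.normal (h : Std w p F c K) : K.Normal := by
  constructor
  intro k hk g
  rw [h.ker] at hk ⊢
  rw [h.lat.add, h.lat.add, hk, add_zero, ← h.lat.add, mul_inv_cancel, h.lat.map_one]

/-- the part of the normalised data used in G1, G2 -/
theorem Std.kpkg (h : Std w p F c K) (hinf : Infinite K) : KPkg Γ q c K :=
  ⟨h.lat, h.normal, h.fg, hinf, fun g hg => (h.ker g).1 hg,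
    ⟨{1}, finite_singleton _, fun g hg => ⟨1, rfl, by rw [inv_one, one_mul]; exact (h.ker g).2 hg⟩⟩,
    h.nvi⟩

/-- rigidity -/
theorem dk1_of (hDK : DKG'Stmt) (hTh : ThStmt) (h : Std w p F c K) (hinf : Infinite K)
    {W : Type} [NormedAddCommGroup W] [InnerProductSpace ℂ W] [CompleteSpace W]
    {π : Γ →* (W ≃ₗᵢ[ℂ] W)} {S : E → Chart n X → Cm n [⋀^Fin (q + 1)]→L[ℂ] W}
    {Θ : E → Chart n X → (Cm n →L[ℂ] W)} {J : W →SL[starRingEnd ℂ] W} (hJ : JDat p F c π S Θ J)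
    {r k s m : ℕ} {H : Type} [NormedAddCommGroup H] [InnerProductSpace ℂ H] [CompleteSpace H]
    {v : E → Chart n X → (Fin (q + r) → Cm n) → H} {U : Γ → (H →ₗᵢ[ℂ] H)}
    {N : Cm k →L[ℂ] Cm q} {𝒢 : Set E} (hL : LeafE s p F m v U π Θ N 𝒢) :
    DK1 p F c m v U π Θ N s 𝒢 := by
  obtain ⟨h1, h2, -, -, h3⟩ := hTh n q X w E Γ p F c K h W π S Θ J hJ
  intro g hg hNI
  filter_upwards [hDK n q r k s m X w h.kah E Γ p h.gal F c K h.hol h.eqv (h.kpkg hinf) h.fr h.conn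
    h.reg W H π Θ _ h1 h2 v U N 𝒢 hL g hg hNI] with j hj
  exact h3 _ hj

end

/-- **(T7)** -/
theorem cPlus_of (hDK : DKG'Stmt) (hTh : ThStmt) (hLF : LFOStmt) : CPlusStmt := by
  intro n q r k s m X _ _ _ _ _ _ w E Γ _ _ _ _ p F c K hStd hN W H _ _ _ _ _ _ π S Θ J T hJ hT hTe
    hπ hfa v U N 𝒢 hI
  obtain ⟨D, y₀, r₀, O, S₀, hDN, hLA, hr₀, hO, hy₀, hS1, hS2, hS3, hfin⟩ :=
    hLF n q r k s m X w E Γ p F c K hStd hN.central W H π S Θ J T hJ hT hTe hπ hfa v U N 𝒢 hI.toLeafE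
      (dk1_of hDK hTh hStd hN.inf hJ hI.toLeafE)
  have hR : 1 ≤ q + r := by
    have h1 := hI.dim
    have h2 := hI.k_pos
    omega
  have key := H988.T.cstkO n X w hStd.kah E Γ p hStd.gal q F c hStd.hol hStd.eqv H (q + r) m hR
    hI.m_pos v hI.form s k D y₀ hLA S₀ r₀ hr₀ O hO hy₀ hS2 hS3 hfin
  have hbot := hN.max (D.Q D.b₀) fun x hx => by
    refine Submodule.span_mono ?_ (key x hx)
    rintro y ⟨⟨g, hg, rfl⟩, hy⟩
    exact ⟨⟨g, hS1 g hg, rfl⟩, hy⟩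
  have hk : 0 < k := hI.k_pos
  have h1 : D.N D.b₀ (Pi.single ⟨0, hk⟩ 1) ∈ D.Q D.b₀ := ⟨_, rfl⟩
  rw [hbot, Submodule.mem_bot] at h1
  have h2 : (Pi.single ⟨0, hk⟩ 1 : Cm k) = 0 := D.inj (by rw [h1, map_zero])
  have h3 := congrFun h2 ⟨0, hk⟩
  simp at h3

end Vale.Agent.P284.H650.T
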