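import Vale.Agent.P284.H650.T.CPlus
import Vale.Agent.P284.H812.NSF18
import Vale.Agent.P284.H15.G.NulG

/-!
# P284 (helper650), T3⁺: the core, by induction on `q`
-/

open scoped Manifold ContDiff Topology InnerProductSpace ComplexConjugate
open Filter Set Metric

noncomputable section

namespace Vale.Agent.P284.H650.T

open Vale.Agent.P272.K Vale.Agent.P284.H894 Vale.Agent.P284.H894.G Vale.Agent.P284.H894.V
  Vale.Agent.P284.H894.W Vale.Agent.P284.H573 Vale.Agent.P284.H213.Grp Vale.Agent.P284.H395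
  Vale.Agent.P284.H619 Vale.Agent.P284.H625 Vale.Agent.P284.H378 Vale.Agent.P284.H478.G
  Vale.Agent.P284.H988.N Vale.Agent.P284.H494 Vale.Agent.P284.H494.N Vale.Agent.P284.H501.Core
  Vale.Agent.P284.H119.Kaz Vale.Agent.P284.H213.Q Vale.Agent.P284.H837.N

section
variable {n q : ℕ} {X E Γ W : Type} [TopologicalSpace X] [ChartedSpace (Cm n) X]
  [TopologicalSpace E] [Group Γ] [MulAction Γ E] [NormedAddCommGroup W] [InnerProductSpace ℂ W]
  {w : Chart n X → Cm n → Matrix (Fin n) (Fin n) ℂ} {G : Subgroup Γ} {p : E → X}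
  {F : E → Cm q} {A : Γ →* (Cm q ≃ₗ[ℂ] Cm q)} {c : Γ → Cm q} {K : Subgroup Γ}
  {ρ : Γ →* (W ≃ₗᵢ[ℂ] W)} {S : E → Chart n X → Cm n [⋀^Fin (q + 1)]→L[ℂ] W}
  {Θ : E → Chart n X → (Cm n →L[ℂ] W)} {J : W →SL[starRingEnd ℂ] W} {T : E → E → W}

/-- the normalised data of `(Y, G)` -/
theorem Full.npkg0 (h : Full w G p F A c K ρ S Θ J T)
    (hmax : ∀ V : Submodule ℂ (Cm q),
      (∀ v ∈ V, v ∈ Submodule.span ℝ ({v | ∃ g ∈ G, (∀ k ∈ K, g * k = k * g) ∧ c g = v} ∩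
        (V : Set (Cm q)))) → V = ⊥) :
    NPkg0 G q (fun g : G => c g) (K.subgroupOf G) := by
  have hlat : LatChar G q (fun g : G => c g) := h.std.dat.lat
  have hKG : K ≤ G := fun g hg => ((h.std.ker g).1 hg).1
  have hKe : K.subgroupOf G ≃* K := Subgroup.subgroupOfEquivOfLe hKG
  have hmem : ∀ g : G, g ∈ K.subgroupOf G ↔ c g = 0 := fun g => by
    rw [Subgroup.mem_subgroupOf, h.std.ker]
    exact ⟨fun h => h.2, fun h => ⟨g.2, h⟩⟩
  have hnorm : (K.subgroupOf G).Normal := by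
    constructor
    intro k hk g
    rw [hmem] at hk ⊢
    have h1 := hlat.add (g * k) g⁻¹
    have h2 := hlat.add g k
    have h3 := hlat.add g g⁻¹
    rw [mul_inv_cancel, hlat.map_one] at h3
    rw [h1, h2, hk, add_zero, ← h3]
  have hcent : ∀ K' : Subgroup G, K' ≤ K.subgroupOf G → (K'.subgroupOf (K.subgroupOf G)).FiniteIndex →
      ∀ g : G, c g = 0 → (∀ k ∈ K', g * k = k * g) → g = 1 := by
    intro K' hK' hfi g hg hgk
    have h1 : K'.map G.subtype ≤ K := by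
      rintro _ ⟨k, hk, rfl⟩
      exact hK' hk
    have h2 : ((K'.map G.subtype).subgroupOf K).FiniteIndex := by
      have h3 : (K'.map G.subtype).relIndex K = K'.relIndex (K.subgroupOf G) := by
        have h4 := Subgroup.relIndex_map_map_of_injective K' (K.subgroupOf G)
          (f := G.subtype) G.subtype_injective
        rw [Subgroup.subgroupOf_map_subtype, inf_eq_left.2 hKG] at h4
        exact h4
      constructor
      show (K'.map G.subtype).relIndex K ≠ 0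
      rw [h3]
      exact hfi.index_ne_zero
    have h3 := h.cent (K'.map G.subtype) h1 h2 g ((h.std.ker g).2 ⟨g.2, hg⟩) (by
      rintro _ ⟨k, hk, rfl⟩
      exact congrArg Subtype.val (hgk k hk))
    exact Subtype.ext h3
  refine ⟨hlat, hnorm, ?_, ?_, fun g hg => (hmem g).1 hg, ?_, ?_, hcent, ?_, ?_⟩
  · have := h.std.fg
    exact Group.fg_of_surjective (f := hKe.symm.toMonoidHom) hKe.symm.surjective
  · by_contra hfin
    rw [not_infinite_iff_finite] at hfin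
    have h2 : Finite K := Finite.of_equiv _ hKe.toEquiv
    exact h.nkaz Kazhdan.of_finite
  · exact ⟨{1}, finite_singleton _, fun g hg => ⟨1, rfl, by
      rw [inv_one, one_mul]; exact (hmem g).2 hg⟩⟩
  · exact fun hv => h.std.nvi (H465.V19.virtIndicable_of_equiv hKe hv)
  · intro g hg x
    have h1 : g * x * g⁻¹ * x⁻¹ = 1 := by
      refine hcent (K.subgroupOf G) le_rfl ?_ _ ?_ ?_
      · rw [Subgroup.subgroupOf_self]
        infer_instance
      · have h1 := hlat.add (g * x * g⁻¹) x⁻¹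
        have h2 := hlat.add (g * x) g⁻¹
        have h3 := hlat.add g x
        have h4 := hlat.add g g⁻¹
        have h5 := hlat.add x x⁻¹
        rw [mul_inv_cancel, hlat.map_one] at h4 h5
        rw [h1, h2, h3]
        have h6 : c (g⁻¹ : G) = - c g := (neg_eq_of_add_eq_zero_right h4.symm).symm
        have h7 : c (x⁻¹ : G) = - c x := (neg_eq_of_add_eq_zero_right h5.symm).symm
        rw [h6, h7]
        abel
      · intro k hk
        have h2 : x⁻¹ * k * x ∈ K.subgroupOf G := by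
          have := hnorm.conj_mem k hk x⁻¹
          rwa [inv_inv] at this
        have h3 := hg _ hk
        have h4 := hg _ h2
        have h5 : g⁻¹ * k = k * g⁻¹ := by
          rw [inv_mul_eq_iff_eq_mul, ← mul_assoc, h3, mul_inv_cancel_right]
        have h6 : g⁻¹ * (x⁻¹ * k * x) = x⁻¹ * k * x * g⁻¹ := by
          rw [inv_mul_eq_iff_eq_mul, ← mul_assoc, h4, mul_inv_cancel_right]
        calc g * x * g⁻¹ * x⁻¹ * k = g * x * (g⁻¹ * (x⁻¹ * k * x)) * x⁻¹ := by group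
          _ = g * x * (x⁻¹ * k * x * g⁻¹) * x⁻¹ := by rw [h6]
          _ = g * k * (x * g⁻¹ * x⁻¹) := by group
          _ = k * g * (x * g⁻¹ * x⁻¹) := by rw [h3]
          _ = k * (g * x * g⁻¹ * x⁻¹) := by group
    have h2 : g * x = x * g := by
      have h3 : g * x * g⁻¹ = x := by
        rw [mul_inv_eq_one] at h1
        exact h1
      rw [mul_inv_eq_iff_eq_mul] at h3
      exact h3
    exact h2
  · intro V hV
    refine hmax V fun v hv => ?_
    refine Submodule.span_mono ?_ (hV v hv)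
    rintro y ⟨⟨g, hg, rfl⟩, hy⟩
    refine ⟨⟨g, g.2, fun k hk => ?_, rfl⟩, hy⟩
    exact congrArg Subtype.val (hg ⟨k, hKG hk⟩ hk)

end

/-- **The core of T3⁺.** -/
theorem core_false {D : Cls} (hTh : ThStmt) (hCP : CPlusStmt) (hPb : PbStmt)
    (hEnd : EndStmt) (hFull : FullStmt) (hMax : MaxStmt D) (hZero : ZeroStmt D)
    (hNoV : ∀ (n : ℕ) (X : Type) [TopologicalSpace X] [T2Space X] [CompactSpace X]
      [ConnectedSpace X] [ChartedSpace (Cm n) X] [IsManifold 𝓘(ℂ, Cm n) ω X], D n X → NoV n X)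
    (n : ℕ) (X : Type) [TopologicalSpace X] [T2Space X] [CompactSpace X]
    [ConnectedSpace X] [ChartedSpace (Cm n) X] [IsManifold 𝓘(ℂ, Cm n) ω X] (hX : D n X)
    (w : Chart n X → Cm n → Matrix (Fin n) (Fin n) ℂ) (q : ℕ) :
    ∀ (E Γ : Type) [TopologicalSpace E] [ConnectedSpace E] [Group Γ] [MulAction Γ E] (p : E → X)
      (F : E → Cm q) (G K : Subgroup Γ) (A : Γ →* (Cm q ≃ₗ[ℂ] Cm q)) (c : Γ → Cm q),
      StdN w G p F A c K → ¬ Kazhdan K → False := by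
  induction q using Nat.strong_induction_on with
  | _ q ih =>
  intro E Γ _ _ _ _ p F G K A c hStd hKz
  rcases Nat.eq_zero_or_pos q with rfl | hq
  · exact hZero n X hX w E Γ p F G K A c hStd hKz
  obtain ⟨E₁, Γ₁, i1, i2, i3, i4, p₁, F₁, G₁, K₁, A₁, c₁, W, j1, j2, j3, ρ, S, Θ, J, T, hF⟩ :=
    hFull n q X w E Γ p F G K A c hStd hq hKz
  have h1 := hF.std
  by_cases hmax : ∀ V : Submodule ℂ (Cm q),
      (∀ v ∈ V, v ∈ Submodule.span ℝ ({v | ∃ g ∈ G₁, (∀ k ∈ K₁, g * k = k * g) ∧ c₁ g = v} ∩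
        (V : Set (Cm q)))) → V = ⊥
  swap
  · push Not at hmax
    obtain ⟨V, hV, hV0⟩ := hmax
    obtain ⟨q₂, E₂, Γ₂, _, _, _, _, p₂, F₂, G₂, K₂, A₂, c₂, hlt, hStd₂, hKz₂⟩ :=
      hMax n q X hX w E₁ Γ₁ p₁ F₁ G₁ K₁ A₁ c₁ h1 hF.nkaz (fun g hg hgk hg0 =>
        hF.cent K₁ le_rfl (by
          rw [Subgroup.subgroupOf_self]
          infer_instance) g ((h1.ker g).2 ⟨hg, hg0⟩) hgk) V hV0 hV
    exact ih q₂ hlt E₂ Γ₂ p₂ F₂ G₂ K₂ A₂ c₂ hStd₂ hKz₂
  have hGn := h1.dat.normal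
  have hGf := h1.dat.fi
  obtain ⟨Y, _, _, _, _, _, _, pY, π, hπ, hπc, hpY, hcomp⟩ :=
    H885.exists_quo n X E₁ Γ₁ p₁ h1.gal G₁ hGf
  obtain ⟨hStdY, hRV, hdat⟩ := hPb n q X w E₁ Γ₁ p₁ F₁ G₁ K₁ A₁ c₁ h1 Y pY π hπ hπc hpY hcomp
  obtain ⟨hJ, hT, hTe⟩ := hdat W ρ S Θ J T hF.dat
  have hN := hF.npkg0 hmax
  obtain ⟨hM₀, hThE, -⟩ := hTh n q Y _ E₁ G₁ pY F₁ _ _ hStdY W _ _ _ J hJ
  rcases H812.NSF.ns2 n Y _ hStdY.kah E₁ G₁ pY hpY q F₁ _ hStdY.hol hStdY.eqv hStdY.reg W _ _ _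
    hJ.rel with hB | hL
  · obtain ⟨O, hO, hOne, hOa⟩ := hB
    exact H15.G.nulG n q Y _ hStdY.kah E₁ G₁ pY hpY F₁ _ _ hStdY.hol hStdY.eqv (hStdY.kpkg hN.inf)
      hStdY.fr hStdY.conn hStdY.reg W _ _ _ hM₀ hThE O hO hOne hOa
  · obtain ⟨r, s, k, m, H, _, _, _, v, U, N, 𝒢, hne, hL⟩ := hL
    rcases Nat.eq_zero_or_pos k with hk | hk
    · subst hk
      have hs : q + (r + 1) = s := by simpa using hL.dim
      subst hs
      exact hEnd n q X (hNoV n X hX) w E₁ Γ₁ p₁ F₁ G₁ K₁ A₁ c₁ h1 W ρ S Θ J T hF.dat Y pY π hπ hπc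
        hpY hcomp r m H v U N 𝒢 hL
    · refine hCP n q (r + 1) k s m Y _ E₁ G₁ pY F₁ _ _ hStdY hN W H _ _ _ J T hJ hT hTe
        (fun g hg => ?_) (fun g hg ha => ?_) v U N 𝒢 { toLeafE := hL, k_pos := hk }
      · refine hF.triv g g.2 fun x hx => ?_
        have hxG : x ∈ G₁ := ((h1.ker x).1 hx).1
        exact congrArg Subtype.val (hg ⟨x, hxG⟩ hx)
      · refine Subtype.ext (hF.faith g hg ⟨ha.1, fun y hy => ?_⟩)
        exact ha.2 y (by rw [hRV]; exact hy)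

/-- **CORE-N**, strong form, representations of `Γ` -/
theorem coreTGPN_of {D : Cls} (hTh : ThStmt) (hCP : CPlusStmt) (hPb : PbStmt)
    (hEnd : EndStmt) (hFull : FullStmt) (hMax : MaxStmt D) (hZero : ZeroStmt D)
    (hNoV : ∀ (n : ℕ) (X : Type) [TopologicalSpace X] [T2Space X] [CompactSpace X]
      [ConnectedSpace X] [ChartedSpace (Cm n) X] [IsManifold 𝓘(ℂ, Cm n) ω X], D n X → NoV n X) :
    H213.N.CoreTGPN D := by
  intro n X _ _ _ _ _ _ hD w hw E Γ _ _ _ _ p hp q F G K A c hB heq hreg hgc hdat hK hfg hnvi hfr hKz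
  exact core_false hTh hCP hPb hEnd hFull hMax hZero hNoV n X hD w q E Γ p F G K A c
    ⟨hw, hp, hB, heq, hreg, hgc, hdat, hK, hfg, hnvi, hfr⟩ hKz

end Vale.Agent.P284.H650.T
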