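import Vale.Agent.P284.H650.T.Glue
import Vale.Agent.P284.H608.SA.Main

/-!
# P284 (helper650), T3⁺: special compact Kähler manifolds
-/

noncomputable section

namespace Vale.Agent.P284.H650.T

/-- **T3⁺** for special compact Kähler manifolds, from (T5) -/
theorem t3p_of (hLF : LFOStmt) : H213.K.MainPiK H213.N.spC H213.G.PTG :=
  H213.N.mainPiK_sp H553.K8.spKN
    (H213.N.mainTGN H608.SA.mfN (coreTGPN_glue H608.SA.mfN hLF))

end Vale.Agent.P284.H650.T
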