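import Vale.Agent.P284.H650.T.Core
import Vale.Agent.P284.H451.T.T0
import Vale.Agent.P284.H366.T.LimJ
import Vale.Agent.P284.H619.T.Th
import Vale.Agent.P284.H619.T.Pb
import Vale.Agent.P284.H136.T.Sep
import Vale.Agent.P284.H136.T.Full
import Vale.Agent.P284.H553.T.LFK
import Vale.Agent.P284.H15.T.Cent
import Vale.Agent.P284.H625.T.N1
import Vale.Agent.P284.H837.T.End
import Vale.Agent.P284.H494.T.Max
import Vale.Agent.P284.H608.T.Zero
import Vale.Agent.P284.H494.T.Two
import Vale.Agent.P284.H213.T.DescF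

/-!
# P284 (helper650), T3⁺: the core from the modules which are still open
-/

noncomputable section

namespace Vale.Agent.P284.H650.T

open Vale.Agent.P284.H837.N

/-- **CORE-N of T3⁺** -/
theorem coreTGPN_glue (hMF : H213.N.MFN noVC) (hLF : LFOStmt) : H213.N.CoreTGPN noVC := by
  have hFix : FixStmt := H15.Del.fixStmt H619.T.thStmt H136.T.sepStmt
  exact coreTGPN_of H619.T.thStmt (cPlus_of H451.T.dkG'Stmt H619.T.thStmt hLF) H619.T.pbStmt
    (H837.T.endStmt_of H619.T.pbStmt H619.T.thStmt H451.T.dkG'Stmt hFix H553.T.lfk)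
    (H136.T.fullStmt (H625.T.limN_of H366.T.limJ H494.T.twoStmt) H619.T.pbStmt
      H213.T.descStmt
      (H15.Del.centStmt H619.T.thStmt H136.T.sepStmt)
      (H15.Del.notKazStmt H619.T.thStmt H136.T.sepStmt))
    (H494.T.maxStmt_of hMF) H608.T.zeroStmt (fun _ _ _ _ _ _ _ _ h => h)

end Vale.Agent.P284.H650.T
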